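import Mathlib

/-!
Basic facts on sums of distinct unit fractions and sums of distinct divisors.
-/

namespace Vale.Agent.P012

open Finset

/-- `x` is a sum of at most `k` distinct unit fractions. -/
def Rep (x : ℚ) (k : ℕ) : Prop :=
  ∃ s : Finset ℕ, (∀ n ∈ s, 0 < n) ∧ s.card ≤ k ∧ ∑ n ∈ s, (1 / n : ℚ) = x

theorem Rep.mono {x : ℚ} {k k' : ℕ} (h : Rep x k) (hk : k ≤ k') : Rep x k' := by
  obtain ⟨s, h1, h2, h3⟩ := h
  exact ⟨s, h1, h2.trans hk, h3⟩

theorem Rep.step {x : ℚ} {k m : ℕ} (hm : 0 < m) (h : Rep (x - 1 / m) k)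
    (hlt : x - 1 / m < 1 / m) : Rep x (k + 1) := by
  obtain ⟨s, h1, h2, h3⟩ := h
  have hms : m ∉ s := by
    intro hms
    have := single_le_sum (f := fun n : ℕ => (1 / n : ℚ)) (fun n _ => by positivity) hms
    linarith
  refine ⟨insert m s, ?_, ?_, ?_⟩
  · intro n hn
    rcases mem_insert.1 hn with rfl | hn
    exacts [hm, h1 n hn]
  · rw [card_insert_of_notMem hms]
    omega
  · rw [sum_insert hms, h3]
    ring

/-- `U` is a sum of at most `k` distinct numbers satisfying `Q`. -/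
def DS (Q : ℕ → Prop) (k U : ℕ) : Prop :=
  ∃ s : Finset ℕ, (∀ t ∈ s, Q t) ∧ s.card ≤ k ∧ ∑ t ∈ s, t = U

theorem DS.mono {Q Q' : ℕ → Prop} {k U : ℕ} (h : DS Q k U) (hQ : ∀ t, Q t → Q' t) : DS Q' k U := by
  obtain ⟨s, h1, h2, h3⟩ := h
  exact ⟨s, fun t ht => hQ t (h1 t ht), h2, h3⟩

theorem DS.zero (Q : ℕ → Prop) : DS Q 0 0 := ⟨∅, by simp, by simp, by simp⟩

theorem DS.single {Q : ℕ → Prop} {m : ℕ} (h : Q m) : DS Q 1 m :=
  ⟨{m}, by simpa using h, by simp, by simp⟩

theorem DS.add {Q Q' : ℕ → Prop} {k k' U U' : ℕ} (h : DS Q k U) (h' : DS Q' k' U')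
    (hd : ∀ t, Q t → Q' t → False) : DS (fun t => Q t ∨ Q' t) (k + k') (U + U') := by
  obtain ⟨s, h1, h2, h3⟩ := h
  obtain ⟨s', h1', h2', h3'⟩ := h'
  have hdisj : Disjoint s s' := disjoint_left.2 fun t ht ht' => hd t (h1 t ht) (h1' t ht')
  refine ⟨s ∪ s', fun t ht => ?_, ?_, ?_⟩
  · rcases mem_union.1 ht with ht | ht
    exacts [Or.inl (h1 t ht), Or.inr (h1' t ht)]
  · rw [card_union_of_disjoint hdisj]
    omega
  · rw [sum_union hdisj, h3, h3']

theorem DS.mul {Q : ℕ → Prop} {k U c : ℕ} (hc : 0 < c) (h : DS Q k U) :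
    DS (fun t => ∃ t', Q t' ∧ t = c * t') k (c * U) := by
  obtain ⟨s, h1, h2, h3⟩ := h
  have hinj : Set.InjOn (fun t => c * t) s := fun a _ b _ hab => Nat.eq_of_mul_eq_mul_left hc hab
  refine ⟨s.image fun t => c * t, fun t ht => ?_, card_image_le.trans h2, ?_⟩
  · obtain ⟨t', ht', rfl⟩ := mem_image.1 ht
    exact ⟨t', h1 t' ht', rfl⟩
  · rw [sum_image hinj, ← mul_sum, h3]

theorem DS.rep {k L P w : ℕ} (hL : 0 < L) (hw : 0 < w) (h : DS (fun t => t ∣ L) k (P * w)) :
    Rep ((P : ℚ) / L) k := by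
  obtain ⟨s, h1, h2, h3⟩ := h
  have hpos : ∀ t ∈ s, 0 < t := fun t ht => Nat.pos_of_dvd_of_pos (h1 t ht) hL
  have hmul : ∀ t ∈ s, w * (L / t) * t = w * L := fun t ht => by
    rw [mul_assoc, Nat.div_mul_cancel (h1 t ht)]
  have hpos' : ∀ t ∈ s, 0 < w * (L / t) := fun t ht =>
    Nat.mul_pos hw (Nat.div_pos (Nat.le_of_dvd hL (h1 t ht)) (hpos t ht))
  have hinj : Set.InjOn (fun t => w * (L / t)) s := by
    intro a ha b hb hab
    have e1 := hmul a ha
    have e2 := hmul b hb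
    simp only at hab
    rw [hab, ← e2] at e1
    exact Nat.eq_of_mul_eq_mul_left (hpos' b hb) e1
  refine ⟨s.image fun t => w * (L / t), fun n hn => ?_, card_image_le.trans h2, ?_⟩
  · obtain ⟨t, ht, rfl⟩ := mem_image.1 hn
    exact hpos' t ht
  · rw [sum_image hinj]
    have hL' : (L : ℚ) ≠ 0 := by positivity
    have hw' : (w : ℚ) ≠ 0 := by positivity
    have : ∀ t ∈ s, (1 / ((w * (L / t) : ℕ) : ℚ)) = (t : ℚ) / (w * L) := by
      intro t ht
      have e := hmul t ht
      have e' : ((w * (L / t) : ℕ) : ℚ) * t = w * L := by exact_mod_cast e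
      have h0 : ((w * (L / t) : ℕ) : ℚ) ≠ 0 := by exact_mod_cast (hpos' t ht).ne'
      rw [div_eq_div_iff h0 (by positivity), one_mul, mul_comm (t : ℚ), e']
    rw [sum_congr rfl this, ← sum_div]
    have h4 : ∑ t ∈ s, (t : ℚ) = P * w := by
      rw [← Nat.cast_sum, h3, Nat.cast_mul]
    rw [h4]
    field_simp

theorem card_comb {c : ℕ} (hc : 0 < c) (A B : Finset ℕ) (hA : Set.InjOn (fun a => a % c) A) :
    ((A ×ˢ B).image fun z => z.1 + c * z.2).card = A.card * B.card := by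
  rw [card_image_of_injOn, card_product]
  rintro ⟨a, b⟩ hz ⟨a', b'⟩ hz' h
  simp only [coe_product, Set.mem_prod, mem_coe] at hz hz'
  simp only at h
  have h1 : a % c = a' % c := by
    have := congrArg (fun n => n % c) h
    simpa [Nat.add_mul_mod_self_left] using this
  have h2 : a = a' := hA hz.1 hz'.1 h1
  subst h2
  have h3 : b = b' := Nat.eq_of_mul_eq_mul_left hc (by omega)
  rw [h3]

theorem exists_digits {q M : ℕ} (hq : 2 ≤ q) (hM : 0 < M) (hqM : ¬ q ∣ M) (R : Finset ℕ)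
    (hR : ∀ m ∈ R, m ∣ M) (hinj : Set.InjOn (fun a => a % q) R) (r : ℕ) :
    ∃ S : Finset ℕ, S.card = R.card ^ r ∧
      ∀ s ∈ S, s + M ≤ M * q ^ r ∧ (0 < r → 0 < s) ∧ DS (fun t => t ∣ q ^ r * M) r s := by
  induction r with
  | zero => exact ⟨{0}, by simp, by simpa using DS.zero _⟩
  | succ r ih =>
    obtain ⟨S, h1, h2⟩ := ih
    refine ⟨(R ×ˢ S).image fun z => z.1 + q * z.2, ?_, ?_⟩
    · rw [card_comb (by omega) R S hinj, h1, pow_succ']
    · intro s hs
      obtain ⟨⟨m, s'⟩, hz, rfl⟩ := mem_image.1 hs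
      obtain ⟨hm, hs'⟩ := mem_product.1 hz
      obtain ⟨e1, -, e3⟩ := h2 s' hs'
      have hmM := hR m hm
      have hmle : m ≤ M := Nat.le_of_dvd hM hmM
      have hmpos : 0 < m := Nat.pos_of_dvd_of_pos hmM hM
      refine ⟨?_, fun _ => by simp only; omega, ?_⟩
      · simp only
        have : q * (s' + M) ≤ q * (M * q ^ r) := Nat.mul_le_mul_left q e1
        rw [pow_succ]
        nlinarith
      · have h3 := (DS.single (Q := fun t => t ∣ M) hmM).add (e3.mul (c := q) (by omega)) (by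
          rintro t ht ⟨t', _, rfl⟩
          exact hqM ((Dvd.intro _ rfl).trans ht))
        rw [add_comm 1 r] at h3
        refine h3.mono ?_
        rintro t (ht | ⟨t', ht', rfl⟩)
        · exact ht.mul_left _
        · rw [pow_succ', mul_assoc]
          exact Nat.mul_dvd_mul_left q ht'

theorem DS.triple {n D l k s1 s2 s3 : ℕ} (hn : Nat.Coprime n D) (hl : l ∣ D) (h1l : 1 < l)
    (hlD : l < D) (h1 : DS (fun t => t ∣ n) k s1) (h2 : DS (fun t => t ∣ n) k s2)
    (h3 : DS (fun t => t ∣ n) k s3) : DS (fun t => t ∣ n * D) (3 * k) (s1 + l * s2 + D * s3) := by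
  have g : ∀ e, e ∣ D → ∀ t, (∃ t', t' ∣ n ∧ t = e * t') → t ∣ n * D ∧ Nat.gcd t D = e := by
    rintro e he t ⟨t', ht', rfl⟩
    refine ⟨by rw [mul_comm n D]; exact Nat.mul_dvd_mul he ht', ?_⟩
    rw [Nat.Coprime.gcd_mul_right_cancel e (Nat.Coprime.coprime_dvd_left ht' hn), Nat.gcd_eq_left he]
  have a1 := (h1.mul Nat.one_pos).mono (g 1 (one_dvd D))
  have a2 := (h2.mul (c := l) (by omega)).mono (g l hl)
  have a3 := (h3.mul (c := D) (by omega)).mono (g D dvd_rfl)
  have a4 := (a1.add a2 (fun t x y => by omega)).add a3 (fun t x y => by omega)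
  rw [one_mul, show k + k + k = 3 * k by ring] at a4
  refine a4.mono ?_
  rintro t ((h | h) | h)
  exacts [h.1, h.1, h.1]

theorem DS.pair {n p k s s' : ℕ} (hp : 0 < p) (hn : ¬ p ∣ n) (h1 : DS (fun t => t ∣ n) k s)
    (h2 : DS (fun t => t ∣ n) k s') : DS (fun t => t ∣ n * p) (2 * k) (s + p * s') := by
  have a := h1.add (h2.mul hp) (by
    rintro t ht ⟨t', _, rfl⟩
    exact hn ((Dvd.intro _ rfl).trans ht))
  rw [← two_mul] at a
  refine a.mono ?_
  rintro t (h | ⟨t', h, rfl⟩)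
  · exact h.mul_right _
  · rw [mul_comm n p]
    exact Nat.mul_dvd_mul_left p h

/-- One strict greedy step. -/
theorem greedy_step {a L k : ℕ} (ha : 0 < a) (haL : a < L)
    (h : Rep (((a * (L / a + 1) - L : ℕ) : ℚ) / ((L * (L / a + 1) : ℕ) : ℚ)) k) :
    Rep ((a : ℚ) / L) (k + 1) := by
  set m := L / a + 1 with hm
  have h1 : L < a * m := by
    have := Nat.lt_div_mul_add (a := L) ha
    rw [hm]
    nlinarith
  have h2 : a * m ≤ L + a := by
    have := Nat.div_mul_le_self L a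
    rw [hm]
    nlinarith
  have hm0 : 0 < m := by rw [hm]; positivity
  have hL : (0 : ℚ) < L := by exact_mod_cast (by omega : 0 < L)
  have hm' : (0 : ℚ) < m := by exact_mod_cast hm0
  have e : (a : ℚ) / L - 1 / m = ((a * m - L : ℕ) : ℚ) / ((L * m : ℕ) : ℚ) := by
    rw [Nat.cast_sub h1.le]
    push_cast
    field_simp
  refine Rep.step hm0 (e ▸ h) ?_
  have : a * m - L < L := by omega
  have h3 : ((a * m - L : ℕ) : ℚ) < L := by exact_mod_cast this
  rw [e, Nat.cast_mul L m, div_lt_div_iff₀ (by positivity) hm']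
  nlinarith

theorem greedy_facts {a L : ℕ} (ha : 0 < a) (u : ℕ) (hu : a * u ≤ L) :
    0 < a * (L / a + 1) - L ∧ a * (L / a + 1) - L ≤ a ∧
      (a * (L / a + 1) - L) * (u * (u + 1)) ≤ L * (L / a + 1) := by
  have h1 := Nat.lt_div_mul_add (a := L) ha
  have h2 := Nat.div_mul_le_self L a
  have h3 : u ≤ L / a := (Nat.le_div_iff_mul_le ha).2 (by rwa [mul_comm])
  have h4 : a * (L / a + 1) - L ≤ a := by
    have : a * (L / a + 1) = L / a * a + a := by ring
    omega
  refine ⟨?_, h4, ?_⟩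
  · have : a * (L / a + 1) = L / a * a + a := by ring
    omega
  · calc (a * (L / a + 1) - L) * (u * (u + 1)) ≤ a * (u * (u + 1)) := Nat.mul_le_mul_right _ h4
      _ = a * u * (u + 1) := by ring
      _ ≤ L * (L / a + 1) := Nat.mul_le_mul hu (by omega)

theorem greedy_loop {b T K : ℕ}
    (hcore : ∀ a L, 0 < a → a ≤ b → T ≤ L → L ≤ T ^ 2 → Rep ((a : ℚ) / L) K) (j : ℕ) :
    ∀ a L u, 0 < a → a ≤ b → 2 ≤ u → a * u ≤ L → L ≤ T ^ 2 → T ≤ u ^ (2 ^ j) →
      Rep ((a : ℚ) / L) (K + j) := by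
  induction j with
  | zero =>
    intro a L u ha hab hu hauL hL hT
    refine hcore a L ha hab ?_ hL
    simp only [pow_zero, pow_one] at hT
    nlinarith
  | succ j ih =>
    intro a L u ha hab hu hauL hL hT
    rcases Nat.lt_or_ge L T with hLT | hLT
    · obtain ⟨f1, f2, f3⟩ := greedy_facts ha u hauL
      refine greedy_step ha (by nlinarith) (ih _ _ (u * u) f1 (f2.trans hab) (by nlinarith) ?_ ?_ ?_)
      · refine le_trans (Nat.mul_le_mul_left _ ?_) f3
        nlinarith
      · have : L / a ≤ L := Nat.div_le_self _ _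
        rw [sq]
        exact Nat.mul_le_mul hLT.le (by omega)
      · rw [← sq, ← pow_mul, ← pow_succ']
        exact hT
    · exact (hcore a L ha hab hLT hL).mono (by omega)

/-- The gap below a rational number left by a sum of `k` distinct unit fractions. -/
theorem gap_lower (k : ℕ) : ∀ (s : Finset ℕ) (u v : ℕ), s.card = k → 0 < v → (∀ n ∈ s, 0 < n) →
    ∑ n ∈ s, (1 / n : ℚ) < (u : ℚ) / v →
    1 / (((2 * (k + 1) * v) ^ (2 ^ k) : ℕ) : ℚ) ≤ (u : ℚ) / v - ∑ n ∈ s, (1 / n : ℚ) := by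
  induction k with
  | zero =>
    intro s u v hs hv _ h
    rw [card_eq_zero] at hs
    subst hs
    simp only [sum_empty, sub_zero] at h ⊢
    have hv' : (0 : ℚ) < v := by exact_mod_cast hv
    have hu : 0 < u := by
      rcases Nat.eq_zero_or_pos u with rfl | hu
      · simp at h
      · exact hu
    have hu' : (1 : ℚ) ≤ u := by exact_mod_cast hu
    push_cast
    rw [div_le_div_iff₀ (by positivity) hv']
    norm_num
    nlinarith
  | succ k ih =>
    intro s u v hs hv hpos h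
    have hv' : (0 : ℚ) < v := by exact_mod_cast hv
    have hsum0 : 0 ≤ ∑ n ∈ s, (1 / n : ℚ) := sum_nonneg fun n _ => by positivity
    have hu : 0 < u := by
      rcases Nat.eq_zero_or_pos u with rfl | hu
      · simp only [Nat.cast_zero, zero_div] at h
        linarith
      · exact hu
    have hu' : (1 : ℚ) ≤ u := by exact_mod_cast hu
    by_cases hall : ∀ n ∈ s, 2 * (k + 1) * v ≤ n
    · have h1 : ∑ n ∈ s, (1 / n : ℚ) ≤ s.card • (1 / (2 * (k + 1) * v) : ℚ) := by
        apply sum_le_card_nsmul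
        intro n hn
        apply one_div_le_one_div_of_le (by positivity)
        exact_mod_cast hall n hn
      rw [hs, nsmul_eq_mul] at h1
      have h2 : ((k + 1 : ℕ) : ℚ) * (1 / (2 * (k + 1) * v) : ℚ) = 1 / (2 * v) := by
        push_cast
        field_simp
      have h3 : 1 / (v : ℚ) ≤ u / v := div_le_div_of_nonneg_right hu' hv'.le
      have h4 : 1 / (v : ℚ) = 1 / (2 * v) + 1 / (2 * v) := by
        field_simp
        ring
      have h5 : 1 / (((2 * (k + 1 + 1) * v) ^ (2 ^ (k + 1)) : ℕ) : ℚ) ≤ 1 / (2 * v) := by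
        apply one_div_le_one_div_of_le (by positivity)
        have : 2 * v ≤ (2 * (k + 1 + 1) * v) ^ (2 ^ (k + 1)) := by
          calc 2 * v ≤ 2 * (k + 1 + 1) * v := by nlinarith
            _ ≤ _ := Nat.le_self_pow (by positivity) _
        exact_mod_cast this
      linarith
    · push Not at hall
      obtain ⟨n, hn, hnlt⟩ := hall
      have hn0 := hpos n hn
      have hn' : (0 : ℚ) < n := by exact_mod_cast hn0
      have e := add_sum_erase s (fun n : ℕ => (1 / n : ℚ)) hn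
      have hs0 : 0 ≤ ∑ x ∈ s.erase n, (1 / x : ℚ) := sum_nonneg fun n _ => by positivity
      have h1 : 1 / (n : ℚ) < u / v := by linarith
      have h2 : v < u * n := by
        rw [div_lt_div_iff₀ hn' hv', one_mul] at h1
        exact_mod_cast h1
      have e2 : ((u * n - v : ℕ) : ℚ) / ((v * n : ℕ) : ℚ) = u / v - 1 / n := by
        rw [Nat.cast_sub h2.le]
        push_cast
        field_simp
      have h3 := ih (s.erase n) (u * n - v) (v * n) (by rw [card_erase_of_mem hn, hs]; rfl)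
        (by positivity) (fun x hx => hpos x (mem_of_mem_erase hx)) (by rw [e2]; linarith)
      rw [e2] at h3
      have h4 : 1 / (((2 * (k + 1 + 1) * v) ^ (2 ^ (k + 1)) : ℕ) : ℚ)
          ≤ 1 / (((2 * (k + 1) * (v * n)) ^ (2 ^ k) : ℕ) : ℚ) := by
        apply one_div_le_one_div_of_le (by positivity)
        have : (2 * (k + 1) * (v * n)) ^ (2 ^ k) ≤ (2 * (k + 1 + 1) * v) ^ (2 ^ (k + 1)) := by
          rw [pow_succ' 2 k, pow_mul]
          apply Nat.pow_le_pow_left
          calc 2 * (k + 1) * (v * n) = (2 * (k + 1) * v) * n := by ring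
            _ ≤ (2 * (k + 1 + 1) * v) * (2 * (k + 1 + 1) * v) :=
              Nat.mul_le_mul (by nlinarith) (by nlinarith)
            _ = _ := by ring
        exact_mod_cast this
      linarith

end Vale.Agent.P012
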