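import Vale.Agent.Lib.Sieve.Count

/-!
A second moment form of the large sieve, and counting lemmas.
-/

namespace Vale.Agent.P012

open Finset Vale.Agent.Sieve

theorem ind_mod_mem {P : ℕ} (I : Finset ℕ) (hI : ∀ i ∈ I, i < P) (n : ℕ) :
    (if n % P ∈ I then (1 : ℝ) else 0) = ∑ i ∈ I, if n ≡ i [MOD P] then (1 : ℝ) else 0 := by
  have : ∀ i ∈ I, (if n ≡ i [MOD P] then (1 : ℝ) else 0) = if n % P = i then (1 : ℝ) else 0 := by
    intro i hi
    have : n ≡ i [MOD P] ↔ n % P = i := by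
      unfold Nat.ModEq
      rw [Nat.mod_eq_of_lt (hI i hi)]
    simp only [this]
  rw [sum_congr rfl this, sum_ite_eq]

theorem sum_ind_modEq (R v : ℕ) {d : ℕ} (hd : 0 < d) :
    |∑ n ∈ range R, (if n ≡ v [MOD d] then (1 : ℝ) else 0) - R / d| ≤ 1 := by
  have := count_modEq R v hd
  rw [card_filter] at this
  push_cast at this
  exact this

theorem count_one {P : ℕ} (hP : 0 < P) (I : Finset ℕ) (hI : ∀ i ∈ I, i < P) (R : ℕ) :
    |∑ n ∈ range R, (if n % P ∈ I then (1 : ℝ) else 0) - R * (I.card / P)| ≤ I.card := by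
  simp only [ind_mod_mem I hI]
  rw [sum_comm]
  have : (R : ℝ) * (I.card / P) = ∑ _i ∈ I, (R : ℝ) / P := by
    rw [sum_const, nsmul_eq_mul]
    ring
  rw [this, ← sum_sub_distrib]
  refine (abs_sum_le_sum_abs _ _).trans ?_
  have := sum_le_card_nsmul I _ 1 (fun i _ => sum_ind_modEq R i hP)
  simpa using this

theorem count_two {P P' : ℕ} (hP : 0 < P) (hP' : 0 < P') (hc : Nat.Coprime P P') (I I' : Finset ℕ)
    (hI : ∀ i ∈ I, i < P) (hI' : ∀ i ∈ I', i < P') (R : ℕ) :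
    |∑ n ∈ range R, (if n % P ∈ I then (1 : ℝ) else 0) * (if n % P' ∈ I' then (1 : ℝ) else 0)
      - R * (I.card / P * (I'.card / P'))| ≤ I.card * I'.card := by
  simp only [ind_mod_mem I hI, ind_mod_mem I' hI', sum_mul_sum]
  rw [sum_comm]
  have h1 : ∀ i ∈ I, ∑ n ∈ range R, ∑ j ∈ I', (if n ≡ i [MOD P] then (1 : ℝ) else 0) *
      (if n ≡ j [MOD P'] then (1 : ℝ) else 0) = ∑ j ∈ I', ∑ n ∈ range R,
        (if n ≡ (Nat.chineseRemainder hc i j : ℕ) [MOD P * P'] then (1 : ℝ) else 0) := by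
    intro i _
    rw [sum_comm]
    refine sum_congr rfl fun j _ => sum_congr rfl fun n _ => ?_
    have e := (Nat.chineseRemainder hc i j).2
    have : n ≡ (Nat.chineseRemainder hc i j : ℕ) [MOD P * P'] ↔ n ≡ i [MOD P] ∧ n ≡ j [MOD P'] := by
      rw [← Nat.modEq_and_modEq_iff_modEq_mul hc]
      exact ⟨fun h => ⟨h.1.trans e.1, h.2.trans e.2⟩, fun h => ⟨h.1.trans e.1.symm, h.2.trans e.2.symm⟩⟩
    simp only [this]
    by_cases a : n ≡ i [MOD P] <;> by_cases b : n ≡ j [MOD P'] <;> simp [a, b]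
  rw [sum_congr rfl h1]
  have : (R : ℝ) * (I.card / P * (I'.card / P')) = ∑ _i ∈ I, ∑ _j ∈ I', (R : ℝ) / ((P * P' : ℕ) : ℝ) := by
    rw [sum_const, sum_const, nsmul_eq_mul, nsmul_eq_mul]
    push_cast
    ring
  rw [this, ← sum_sub_distrib]
  refine (abs_sum_le_sum_abs _ _).trans ?_
  have h2 : ∀ i ∈ I, |∑ j ∈ I', ∑ n ∈ range R,
        (if n ≡ (Nat.chineseRemainder hc i j : ℕ) [MOD P * P'] then (1 : ℝ) else 0)
        - ∑ _j ∈ I', (R : ℝ) / ((P * P' : ℕ) : ℝ)| ≤ I'.card := by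
    intro i _
    rw [← sum_sub_distrib]
    refine (abs_sum_le_sum_abs _ _).trans ?_
    have := sum_le_card_nsmul I' _ 1
      (fun j _ => sum_ind_modEq R (Nat.chineseRemainder hc i j : ℕ) (Nat.mul_pos hP hP'))
    simpa using this
  have := sum_le_card_nsmul I _ _ h2
  simpa using this

theorem cov_le {P P' X : ℕ} (hP : 0 < P) (hP' : 0 < P') (hPX : P ≤ X) (hPX' : P' ≤ X)
    (hc : Nat.Coprime P P') (I I' : Finset ℕ)
    (hI : ∀ i ∈ I, i < P) (hI' : ∀ i ∈ I', i < P') (R : ℕ) :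
    ∑ n ∈ range R, ((if n % P ∈ I then (1 : ℝ) else 0) - I.card / P) *
      ((if n % P' ∈ I' then (1 : ℝ) else 0) - I'.card / P') ≤ 3 * (X : ℝ) ^ 2 := by
  have c1 := count_one hP I hI R
  have c2 := count_one hP' I' hI' R
  have c3 := count_two hP hP' hc I I' hI hI' R
  have hcard : I.card ≤ P := by
    have : I ⊆ range P := fun i hi => mem_range.2 (hI i hi)
    simpa using card_le_card this
  have hcard' : I'.card ≤ P' := by
    have : I' ⊆ range P' := fun i hi => mem_range.2 (hI' i hi)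
    simpa using card_le_card this
  have hPr : (0 : ℝ) < P := by exact_mod_cast hP
  have hPr' : (0 : ℝ) < P' := by exact_mod_cast hP'
  have d0 : (0 : ℝ) ≤ I.card / P := by positivity
  have d0' : (0 : ℝ) ≤ I'.card / P' := by positivity
  have d1 : (I.card : ℝ) / P ≤ 1 := by rw [div_le_one hPr]; exact_mod_cast hcard
  have d1' : (I'.card : ℝ) / P' ≤ 1 := by rw [div_le_one hPr']; exact_mod_cast hcard'
  have hIX : (I.card : ℝ) ≤ X := by exact_mod_cast hcard.trans hPX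
  have hIX' : (I'.card : ℝ) ≤ X := by exact_mod_cast hcard'.trans hPX'
  have hX : (1 : ℝ) ≤ X := by exact_mod_cast (by omega : 1 ≤ X)
  set δ := (I.card : ℝ) / P
  set δ' := (I'.card : ℝ) / P'
  set N1 := ∑ n ∈ range R, (if n % P ∈ I then (1 : ℝ) else 0)
  set N2 := ∑ n ∈ range R, (if n % P' ∈ I' then (1 : ℝ) else 0)
  set N3 := ∑ n ∈ range R, (if n % P ∈ I then (1 : ℝ) else 0) * (if n % P' ∈ I' then (1 : ℝ) else 0)
  have e : ∑ n ∈ range R, ((if n % P ∈ I then (1 : ℝ) else 0) - δ) *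
      ((if n % P' ∈ I' then (1 : ℝ) else 0) - δ') = N3 - δ' * N1 - δ * N2 + R * (δ * δ') := by
    simp only [N1, N2, N3, mul_sum, ← sum_sub_distrib]
    rw [show (R : ℝ) * (δ * δ') = ∑ _n ∈ range R, δ * δ' by simp, ← sum_add_distrib]
    exact sum_congr rfl fun n _ => by ring
  rw [e]
  have a1 := (abs_le.1 c1).1
  have a2 := (abs_le.1 c2).1
  have a3 := (abs_le.1 c3).2
  have b1 : δ' * (R * δ - N1) ≤ X := by nlinarith
  have b2 : δ * (R * δ' - N2) ≤ X := by nlinarith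
  have b3 : (I.card : ℝ) * I'.card ≤ X * X := mul_le_mul hIX hIX' (by positivity) (by positivity)
  nlinarith

theorem variance {κ : Type*} (A : Finset κ) (P : κ → ℕ) (X R : ℕ) (S : Finset ℕ)
    (hS : ∀ s ∈ S, s < R) (hP : ∀ τ ∈ A, 0 < P τ ∧ P τ ≤ X)
    (h : ∀ τ ∈ A, 2 * (S.image fun s => s % P τ).card ≤ P τ) :
    (S.card : ℝ) * (A.card : ℝ) ^ 2 ≤
      4 * R * ((A ×ˢ A).filter fun z => ¬ Nat.Coprime (P z.1) (P z.2)).card
        + 12 * (X : ℝ) ^ 2 * (A.card : ℝ) ^ 2 := by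
  let I : κ → Finset ℕ := fun τ => S.image fun s => s % P τ
  let f : κ → ℕ → ℝ := fun τ n => (if n % P τ ∈ I τ then (1 : ℝ) else 0) - (I τ).card / P τ
  have hI : ∀ τ ∈ A, ∀ i ∈ I τ, i < P τ := by
    intro τ hτ i hi
    obtain ⟨s, _, rfl⟩ := mem_image.1 hi
    exact Nat.mod_lt _ (hP τ hτ).1
  have hδ : ∀ τ ∈ A, ((I τ).card : ℝ) / P τ ≤ 1 / 2 := by
    intro τ hτ
    have h0 : (0 : ℝ) < P τ := by exact_mod_cast (hP τ hτ).1
    have h1 : 2 * ((I τ).card : ℝ) ≤ P τ := by exact_mod_cast h τ hτ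
    rw [div_le_iff₀ h0]
    linarith
  have hδ0 : ∀ τ, 0 ≤ ((I τ).card : ℝ) / P τ := fun τ => by positivity
  have hf1 : ∀ τ ∈ A, ∀ n, |f τ n| ≤ 1 := by
    intro τ hτ n
    have := hδ τ hτ
    have := hδ0 τ
    simp only [f]
    rw [abs_le]
    split_ifs <;> constructor <;> linarith
  have h1 : ∀ s ∈ S, (A.card : ℝ) ^ 2 / 4 ≤ (∑ τ ∈ A, f τ s) ^ 2 := by
    intro s hs
    have : A.card • (1 / 2 : ℝ) ≤ ∑ τ ∈ A, f τ s := by
      apply card_nsmul_le_sum
      intro τ hτ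
      have := hδ τ hτ
      have hm : s % P τ ∈ I τ := mem_image.2 ⟨s, hs, rfl⟩
      simp only [f, if_pos hm]
      linarith
    rw [nsmul_eq_mul] at this
    have h0 : (0 : ℝ) ≤ A.card := by positivity
    nlinarith
  have h2 : S.card • ((A.card : ℝ) ^ 2 / 4) ≤ ∑ n ∈ range R, (∑ τ ∈ A, f τ n) ^ 2 :=
    (card_nsmul_le_sum S _ _ h1).trans
      (sum_le_sum_of_subset_of_nonneg (fun s hs => mem_range.2 (hS s hs)) fun _ _ _ => sq_nonneg _)
  have h3 : ∑ n ∈ range R, (∑ τ ∈ A, f τ n) ^ 2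
      = ∑ z ∈ A ×ˢ A, ∑ n ∈ range R, f z.1 n * f z.2 n := by
    rw [sum_comm]
    refine sum_congr rfl fun n _ => ?_
    rw [sq, sum_mul_sum, sum_product]
  have h4 : ∀ z ∈ A ×ˢ A, ∑ n ∈ range R, f z.1 n * f z.2 n ≤
      (if ¬ Nat.Coprime (P z.1) (P z.2) then (R : ℝ) else 0) + 3 * (X : ℝ) ^ 2 := by
    intro z hz
    obtain ⟨hz1, hz2⟩ := mem_product.1 hz
    split_ifs with hc
    · rw [zero_add]
      exact cov_le (hP _ hz1).1 (hP _ hz2).1 (hP _ hz1).2 (hP _ hz2).2 hc _ _ (hI _ hz1) (hI _ hz2) R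
    · have : ∑ n ∈ range R, f z.1 n * f z.2 n ≤ (range R).card • (1 : ℝ) := by
        apply sum_le_card_nsmul
        intro n _
        refine (le_abs_self _).trans ?_
        rw [abs_mul]
        exact mul_le_one₀ (hf1 _ hz1 n) (abs_nonneg _) (hf1 _ hz2 n)
      simp only [card_range, nsmul_eq_mul, mul_one] at this
      have : (0 : ℝ) ≤ 3 * (X : ℝ) ^ 2 := by positivity
      linarith
  have h5 := sum_le_sum h4
  rw [sum_add_distrib, ← sum_filter, sum_const, sum_const, card_product, nsmul_eq_mul,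
    nsmul_eq_mul] at h5
  rw [nsmul_eq_mul] at h2
  push_cast at h5
  nlinarith

theorem card_image_mod_le {P p : ℕ} (hP : 0 < P) (hc : Nat.Coprime p P) (S : Finset ℕ)
    (h : ∀ s ∈ S, ∀ s' ∈ S, ¬ P ∣ s + p * s') : 2 * (S.image fun s => s % P).card ≤ P := by
  have : NeZero P := ⟨hP.ne'⟩
  let A : Finset (ZMod P) := S.image fun s : ℕ => (s : ZMod P)
  let u := ZMod.unitOfCoprime p hc
  let B : Finset (ZMod P) := A.image fun x => -(u * x)
  have hB : B.card = A.card := by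
    apply card_image_of_injective
    intro x y hxy
    simpa using hxy
  have hA : (S.image fun s => s % P).card ≤ A.card := by
    have : (S.image fun s => s % P) = A.image ZMod.val := by
      simp only [A, image_image]
      exact image_congr fun s _ => by simp
    rw [this]
    exact card_image_le
  have hd : Disjoint A B := by
    rw [disjoint_left]
    intro x hx hx'
    obtain ⟨s, hs, rfl⟩ := mem_image.1 hx
    obtain ⟨y, hy, e⟩ := mem_image.1 hx'
    obtain ⟨s', hs', rfl⟩ := mem_image.1 hy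
    apply h s hs s' hs'
    rw [← ZMod.natCast_eq_zero_iff]
    push_cast
    rw [← e, ZMod.coe_unitOfCoprime]
    ring
  have h1 := card_le_univ (A ∪ B)
  rw [card_union_of_disjoint hd, ZMod.card] at h1
  omega

theorem noncoprime_count {T Y c A x : ℕ} (hY : 0 < Y) (hc : 0 < c) (hcA : Nat.Coprime c A)
    (hx : c + A * T ≤ 2 ^ x) (G : Finset ℕ) (hG : G ⊆ range T)
    (hr : ∀ n ∈ G, ∀ p ∈ Nat.primesLE Y, ¬ p ∣ c + A * n) :
    (((G ×ˢ G).filter fun z => ¬ Nat.Coprime (c + A * z.1) (c + A * z.2)).card : ℝ)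
      ≤ G.card * (x * (T / Y + 1)) := by
  have h1 : ∀ n ∈ G, ((G.filter fun m => ¬ Nat.Coprime (c + A * n) (c + A * m)).card : ℝ)
      ≤ x * (T / Y + 1) := by
    intro n hn
    have hsub : (G.filter fun m => ¬ Nat.Coprime (c + A * n) (c + A * m)) ⊆
        (c + A * n).primeFactors.biUnion fun p => (range T).filter fun m => p ∣ c + A * m := by
      intro m hm
      obtain ⟨hmG, hnc⟩ := mem_filter.1 hm
      obtain ⟨p, hp, h1, h2⟩ := Nat.Prime.not_coprime_iff_dvd.1 hnc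
      exact mem_biUnion.2 ⟨p, Nat.mem_primeFactors.2 ⟨hp, h1, by omega⟩,
        mem_filter.2 ⟨hG hmG, h2⟩⟩
    have h2 := (card_le_card hsub).trans card_biUnion_le
    have h3 : ∀ p ∈ (c + A * n).primeFactors,
        (((range T).filter fun m => p ∣ c + A * m).card : ℝ) ≤ T / Y + 1 := by
      intro p hp
      obtain ⟨hp1, hp2, -⟩ := Nat.mem_primeFactors.1 hp
      have hpA : ¬ p ∣ A := by
        intro hA
        have hc : p ∣ c := (Nat.dvd_add_left (hA.mul_right n)).1 hp2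
        exact hp1.one_lt.ne' (Nat.eq_one_of_dvd_coprimes hcA hc hA)
      have hYp : Y < p := by
        by_contra hle
        exact hr n hn p (Nat.mem_primesLE.2 ⟨by omega, hp1⟩) hp2
      have h4 := (abs_le.1 (count_dvd_lin T c A hp1.pos
        ((Nat.Prime.coprime_iff_not_dvd hp1).2 hpA).symm)).2
      have h5 : (T : ℝ) / p ≤ T / Y :=
        div_le_div_of_nonneg_left (by positivity) (by exact_mod_cast hY) (by exact_mod_cast hYp.le)
      linarith
    have h4 := sum_le_card_nsmul _ _ _ h3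
    have h5 : (c + A * n).primeFactors.card ≤ x := by
      apply card_primeFactors_le (by omega)
      refine le_trans ?_ hx
      have := mem_range.1 (hG hn)
      have := Nat.mul_le_mul_left A this.le
      omega
    have h6 : ((c + A * n).primeFactors.card : ℝ) ≤ x := by exact_mod_cast h5
    rw [nsmul_eq_mul] at h4
    have h7 : ((G.filter fun m => ¬ Nat.Coprime (c + A * n) (c + A * m)).card : ℝ) ≤
        ∑ p ∈ (c + A * n).primeFactors, (((range T).filter fun m => p ∣ c + A * m).card : ℝ) := by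
      exact_mod_cast h2
    have h8 : (0 : ℝ) ≤ T / Y + 1 := by positivity
    nlinarith
  have h2 : ((G ×ˢ G).filter fun z => ¬ Nat.Coprime (c + A * z.1) (c + A * z.2)).card
      = ∑ n ∈ G, (G.filter fun m => ¬ Nat.Coprime (c + A * n) (c + A * m)).card := by
    rw [card_filter, sum_product]
    exact sum_congr rfl fun n _ => (card_filter _ _).symm
  rw [h2]
  push_cast
  have := sum_le_card_nsmul _ _ _ h1
  rwa [nsmul_eq_mul] at this

theorem exists_good_modulus {M l : ℕ} (hl : 0 < l) (hM : M ≤ 2 ^ l) (D : Finset ℕ)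
    (hD : ∀ m ∈ D, m ≤ M) (hD0 : D.Nonempty) (Q : Finset ℕ) (hQ : ∀ q ∈ Q, q.Prime)
    (hcard : 2 * l * D.card ≤ Q.card) :
    ∃ q ∈ Q, ∃ R ⊆ D, Set.InjOn (fun a => a % q) R ∧ D.card ≤ 2 * R.card := by
  let C : ℕ → Finset (ℕ × ℕ) := fun q => (D ×ˢ D).filter fun z => z.1 ≠ z.2 ∧ z.1 % q = z.2 % q
  have hDpos : 0 < D.card := card_pos.2 hD0
  have hQne : Q.Nonempty := card_pos.1 (lt_of_lt_of_le (by positivity) hcard)
  have h1 : ∑ q ∈ Q, (C q).card ≤ D.card * D.card * l := by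
    simp only [C, card_filter]
    rw [sum_comm, ← card_product, ← smul_eq_mul]
    apply sum_le_card_nsmul
    rintro ⟨a, b⟩ hz
    obtain ⟨ha, hb⟩ := mem_product.1 hz
    rw [← card_filter]
    by_cases hab : a = b
    · simp [hab]
    have hd : Nat.dist a b ≠ 0 := fun h => hab (Nat.eq_of_dist_eq_zero h)
    have hsub : (Q.filter fun q => a ≠ b ∧ a % q = b % q) ⊆ (Nat.dist a b).primeFactors := by
      intro q hq
      obtain ⟨hq1, -, hq2⟩ := mem_filter.1 hq
      refine Nat.mem_primeFactors.2 ⟨hQ q hq1, ?_, hd⟩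
      rcases le_total a b with h | h
      · rw [Nat.dist_eq_sub_of_le h]
        exact (Nat.modEq_iff_dvd' h).1 hq2
      · rw [Nat.dist_eq_sub_of_le_right h]
        exact (Nat.modEq_iff_dvd' h).1 hq2.symm
    refine (card_le_card hsub).trans (card_primeFactors_le hd ?_)
    have := hD a ha
    have := hD b hb
    unfold Nat.dist
    omega
  have h2 : ∑ q ∈ Q, (C q).card * Q.card ≤ ∑ _q ∈ Q, D.card * D.card * l := by
    rw [← sum_mul, sum_const, smul_eq_mul, mul_comm]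
    exact Nat.mul_le_mul_left _ h1
  obtain ⟨q, hq, h3⟩ := exists_le_of_sum_le hQne h2
  have h4 : 2 * (C q).card ≤ D.card := by
    have h5 : (C q).card * (2 * l * D.card) ≤ D.card * D.card * l :=
      (Nat.mul_le_mul_left _ hcard).trans h3
    have h6 : (2 * (C q).card) * (l * D.card) ≤ D.card * (l * D.card) := by nlinarith
    exact Nat.le_of_mul_le_mul_right h6 (by positivity)
  refine ⟨q, hq, D \ (C q).image Prod.fst, sdiff_subset, ?_, ?_⟩
  · intro a ha b hb hab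
    by_contra hne
    rw [mem_coe, mem_sdiff] at ha hb
    exact ha.2 (mem_image.2 ⟨(a, b), mem_filter.2 ⟨mem_product.2 ⟨ha.1, hb.1⟩, hne, hab⟩, rfl⟩)
  · have h5 := le_card_sdiff ((C q).image Prod.fst) D
    have h6 : ((C q).image Prod.fst).card ≤ (C q).card := card_image_le
    omega

theorem exists_primes_avoiding {D Y k : ℕ} (h : k + D.primeFactors.card ≤ Nat.primeCounting Y)
    (hD : D ≠ 0) : ∃ Q : Finset ℕ, Q.card = k ∧ ∀ q ∈ Q, q.Prime ∧ q ≤ Y ∧ ¬ q ∣ D := by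
  have h1 := le_card_sdiff D.primeFactors (Nat.primesLE Y)
  rw [Nat.primesLE_card_eq_primeCounting] at h1
  obtain ⟨Q, hQ, hc⟩ := exists_subset_card_eq (s := Nat.primesLE Y \ D.primeFactors) (n := k)
    (by omega)
  refine ⟨Q, hc, fun q hq => ?_⟩
  obtain ⟨h2, h3⟩ := mem_sdiff.1 (hQ hq)
  obtain ⟨h4, h5⟩ := Nat.mem_primesLE.1 h2
  exact ⟨h5, h4, fun hd => h3 (Nat.mem_primeFactors.2 ⟨h5, hd, hD⟩)⟩

theorem exists_divisor_family (Q : Finset ℕ) (hQ : ∀ q ∈ Q, q.Prime) :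
    ∃ D : Finset ℕ, D.card = 2 ^ Q.card ∧ ∀ m ∈ D, m ∣ ∏ q ∈ Q, q := by
  refine ⟨Q.powerset.image fun s => ∏ q ∈ s, q, ?_, ?_⟩
  · rw [card_image_of_injOn, card_powerset]
    intro s hs t ht h
    rw [mem_coe, mem_powerset] at hs ht
    have e1 := Nat.primeFactors_prod (s := s) fun p hp => hQ p (hs hp)
    have e2 := Nat.primeFactors_prod (s := t) fun p hp => hQ p (ht hp)
    simp only at h
    rw [← e1, ← e2, h]
  · intro m hm
    obtain ⟨s, hs, rfl⟩ := mem_image.1 hm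
    exact prod_dvd_prod_of_subset _ _ _ (mem_powerset.1 hs)

end Vale.Agent.P012
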