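import Vale.Agent.P012.Basic
import Vale.Agent.P012.Variance

/-!
The main construction.
-/

namespace Vale.Agent.P012

open Finset Vale.Agent.Sieve

theorem stageA {D l v w z r : ℕ} (hD : D ≠ 0) (hl : 0 < l) (hr : 0 < r) (hw : 1 ≤ w)
    (h1 : w + 1 + D.primeFactors.card ≤ Nat.primeCounting (2 ^ (2 * v)))
    (h2 : 2 * v * (w + 1) ≤ l)
    (h3 : 2 * l * 2 ^ w + (D.primeFactors.card + (w + 1)) ≤ Nat.primeCounting (2 ^ z)) :
    ∃ n p : ℕ, ∃ S : Finset ℕ, p.Prime ∧ ¬ p ∣ n * D ∧ Nat.Coprime n D ∧ 0 < n ∧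
      n * p ≤ 2 ^ (l + z * r) ∧ 2 ^ ((w - 1) * r) ≤ S.card ∧
      ∀ s ∈ S, 0 < s ∧ s < 2 ^ (l + z * r) ∧ DS (fun t => t ∣ n) r s := by
  obtain ⟨Q, hQc, hQ⟩ := exists_primes_avoiding h1 hD
  obtain ⟨p, hp⟩ : Q.Nonempty := card_pos.1 (by omega)
  set Q' := Q.erase p with hQ'
  have hQ'c : Q'.card = w := by rw [hQ', card_erase_of_mem hp, hQc]; rfl
  have hQ'p : ∀ q ∈ Q', q.Prime := fun q hq => (hQ q (mem_of_mem_erase hq)).1
  set M := ∏ q ∈ Q', q with hM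
  have hMp : M * p = ∏ q ∈ Q, q := prod_erase_mul Q (fun q => q) hp
  have hM0 : 0 < M := prod_pos fun q hq => (hQ'p q hq).pos
  have hpp := (hQ p hp).1
  have hMle : M * p ≤ 2 ^ l := by
    rw [hMp]
    calc ∏ q ∈ Q, q ≤ (2 ^ (2 * v)) ^ Q.card := prod_le_pow_card _ _ _ fun q hq => (hQ q hq).2.1
      _ = 2 ^ (2 * v * (w + 1)) := by rw [hQc, ← pow_mul]
      _ ≤ 2 ^ l := Nat.pow_le_pow_right (by norm_num) h2
  have hMle' : M ≤ 2 ^ l := le_trans (Nat.le_mul_of_pos_right M hpp.pos) hMle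
  have hMD : Nat.Coprime M D := Nat.Coprime.prod_left fun q hq =>
    (Nat.Prime.coprime_iff_not_dvd (hQ'p q hq)).2 (hQ q (mem_of_mem_erase hq)).2.2
  have hpM : ¬ p ∣ M := by
    intro h
    obtain ⟨q, hq, hd⟩ := (Prime.dvd_finsetProd_iff hpp.prime _).1 h
    have := (Nat.prime_dvd_prime_iff_eq hpp (hQ'p q hq)).1 hd
    exact (mem_erase.1 hq).1 this.symm
  obtain ⟨Dv, hDc, hDv⟩ := exists_divisor_family Q' hQ'p
  rw [hQ'c] at hDc
  have hne : D * (M * p) ≠ 0 := Nat.mul_ne_zero hD (Nat.mul_ne_zero hM0.ne' hpp.ne_zero)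
  have h4 : (D * (M * p)).primeFactors.card ≤ D.primeFactors.card + (w + 1) := by
    rw [Nat.primeFactors_mul hD (Nat.mul_ne_zero hM0.ne' hpp.ne_zero), hMp,
      Nat.primeFactors_prod fun q hq => (hQ q hq).1, ← hQc]
    exact card_union_le _ _
  obtain ⟨Q2, hQ2c, hQ2⟩ := exists_primes_avoiding (k := 2 * l * 2 ^ w) (Y := 2 ^ z)
    (D := D * (M * p)) (by omega) hne
  obtain ⟨q, hq, R, hRD, hRinj, hRc⟩ := exists_good_modulus hl hMle' Dv
    (fun m hm => Nat.le_of_dvd hM0 (hDv m hm)) (card_pos.1 (by rw [hDc]; positivity)) Q2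
    (fun q hq => (hQ2 q hq).1) (by rw [hDc, hQ2c])
  obtain ⟨hqp, hqz, hqd⟩ := hQ2 q hq
  have hqD : ¬ q ∣ D := fun h => hqd (h.mul_right _)
  have hqM : ¬ q ∣ M := fun h => hqd ((h.mul_right _).mul_left _)
  have hqp' : ¬ q ∣ p := fun h => hqd ((h.mul_left _).mul_left _)
  obtain ⟨S, hSc, hS⟩ := exists_digits hqp.two_le hM0 hqM R (fun m hm => hDv m (hRD hm)) hRinj r
  have hqr : q ^ r ≤ 2 ^ (z * r) := by
    rw [pow_mul]
    exact Nat.pow_le_pow_left hqz r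
  refine ⟨q ^ r * M, p, S, hpp, ?_, ?_, by have := hqp.pos; positivity, ?_, ?_, ?_⟩
  · intro h
    rcases (Nat.Prime.dvd_mul hpp).1 h with h | h
    · rcases (Nat.Prime.dvd_mul hpp).1 h with h | h
      · have := (Nat.prime_dvd_prime_iff_eq hpp hqp).1 (hpp.dvd_of_dvd_pow h)
        exact hqp' (this ▸ dvd_rfl)
      · exact hpM h
    · exact (hQ p hp).2.2 h
  · exact Nat.Coprime.mul_left (Nat.Coprime.pow_left r ((Nat.Prime.coprime_iff_not_dvd hqp).2 hqD)) hMD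
  · rw [mul_assoc, pow_add, mul_comm]
    exact Nat.mul_le_mul hMle hqr
  · rw [hSc, pow_mul]
    apply Nat.pow_le_pow_left
    have : 2 ^ w = 2 * 2 ^ (w - 1) := by
      rw [← pow_succ']
      congr 1
      omega
    omega
  · intro s hs
    obtain ⟨e1, e2, e3⟩ := hS s hs
    refine ⟨e2 hr, ?_, e3⟩
    have : M * q ^ r ≤ 2 ^ (l + z * r) := by
      rw [pow_add]
      exact Nat.mul_le_mul hMle' hqr
    omega

theorem stageB {c A p T Y U x X R : ℕ} (hc : 0 < c) (hcA : Nat.Coprime c A) (hp : p ∣ A)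
    (hY : 0 < Y) (hYT : Y ≤ T) (hX : c + A * T ≤ X) (hx : X ≤ 2 ^ x) (hxU : x ≤ U)
    (hG : (T : ℝ) ≤ U * (((range T).filter fun n => ∀ q ∈ Nat.primesLE Y, ¬ q ∣ c + A * n).card : ℝ))
    (S : Finset ℕ) (hS : ∀ s ∈ S, s < R) (hbig : 8 * R * U ^ 2 + 12 * X ^ 2 * Y < S.card * Y) :
    ∃ n < T, ∃ s ∈ S, ∃ s' ∈ S, c + A * n ∣ s + p * s' := by
  by_contra hcon
  push Not at hcon
  set G := (range T).filter fun n => ∀ q ∈ Nat.primesLE Y, ¬ q ∣ c + A * n with hGdef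
  have hGT : G ⊆ range T := filter_subset _ _
  have h1 := variance G (fun n => c + A * n) X R S hS
    (fun n hn => ⟨by omega, by
      have := Nat.mul_le_mul_left A (mem_range.1 (hGT hn)).le
      omega⟩)
    (fun n hn => card_image_mod_le (by omega)
      (Nat.Coprime.coprime_dvd_left hp (by
        rw [Nat.coprime_comm, Nat.coprime_add_mul_left_left]
        exact hcA)) S (hcon n (mem_range.1 (hGT hn))))
  have h2 := noncoprime_count hY hc hcA (hX.trans hx) G hGT (fun n hn => (mem_filter.1 hn).2)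
  have hY' : (0 : ℝ) < Y := by exact_mod_cast hY
  have hYT' : (Y : ℝ) ≤ T := by exact_mod_cast hYT
  have hg : (0 : ℝ) < G.card := by
    by_contra h
    have : (G.card : ℝ) = 0 := le_antisymm (not_lt.1 h) (by positivity)
    rw [this] at hG
    linarith
  have hxU' : (x : ℝ) ≤ U := by exact_mod_cast hxU
  have h3 : (T : ℝ) / Y + 1 ≤ 2 * (U * G.card) / Y := by
    rw [div_add_one hY'.ne', div_le_div_iff_of_pos_right hY']
    linarith
  have h4 : (x : ℝ) * (T / Y + 1) ≤ U * (2 * (U * G.card) / Y) :=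
    mul_le_mul hxU' h3 (by positivity) (by positivity)
  have hR : (0 : ℝ) ≤ 4 * R := by positivity
  have h5 := mul_le_mul_of_nonneg_left (h2.trans (mul_le_mul_of_nonneg_left h4 hg.le)) hR
  have h6 : (S.card : ℝ) * (G.card : ℝ) ^ 2 ≤ (8 * R * U ^ 2 / Y + 12 * (X : ℝ) ^ 2) * (G.card : ℝ) ^ 2 := by
    have : 4 * (R : ℝ) * (G.card * (U * (2 * (U * G.card) / Y))) = 8 * R * U ^ 2 / Y * (G.card : ℝ) ^ 2 := by
      ring
    linarith
  have h7 := le_of_mul_le_mul_right h6 (by positivity)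
  have h8 : 8 * (R : ℝ) * U ^ 2 + 12 * X ^ 2 * Y < S.card * Y := by exact_mod_cast hbig
  have h9 := mul_le_mul_of_nonneg_right h7 hY'.le
  rw [add_mul, div_mul_cancel₀ _ hY'.ne'] at h9
  linarith

theorem exp_twelve_le : Real.exp 12 ≤ 2 ^ 18 := by
  have h := Real.exp_one_lt_d9
  have : Real.exp 12 = Real.exp 1 ^ 12 := by
    rw [← Real.exp_nat_mul]
    norm_num
  rw [this]
  calc Real.exp 1 ^ 12 ≤ 2.7182818286 ^ 12 := pow_le_pow_left₀ (Real.exp_pos 1).le h.le 12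
    _ ≤ 2 ^ 18 := by norm_num

theorem sieve_count {s : ℕ} (hs : ∀ Y T c A : ℕ, 1 ≤ Y → Nat.Coprime c A →
    (T : ℝ) / 2 * ∏ p ∈ Nat.primesLE Y, (1 - 1 / (p : ℝ)) - (Y : ℝ) ^ s ≤
      ((range T).filter fun n => ∀ p ∈ Nat.primesLE Y, ¬ p ∣ c + A * n).card)
    {l v c A : ℕ} (hlv : l < 2 ^ v) (hv : 18 * (v + 5) + 2 ≤ l) (hcA : Nat.Coprime c A) :
    (((2 ^ (18 * l)) ^ (s + 1) : ℕ) : ℝ) ≤ ((2 ^ l : ℕ) : ℝ) *
      (((range ((2 ^ (18 * l)) ^ (s + 1))).filter fun n =>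
        ∀ q ∈ Nat.primesLE (2 ^ (18 * l)), ¬ q ∣ c + A * n).card : ℝ) := by
  have h1 := hs (2 ^ (18 * l)) ((2 ^ (18 * l)) ^ (s + 1)) c A Nat.one_le_two_pow hcA
  have h2 := exp_le_prod_primesLE (2 ^ (18 * l)) (v + 5) (by
    apply Nat.pow_lt_pow_right (by norm_num)
    rw [pow_add]
    omega)
  have h3 : 4 / (2 : ℝ) ^ l ≤ Real.exp (-(12 * ((v + 5 : ℕ) : ℝ))) := by
    rw [Real.exp_neg, mul_comm, Real.exp_nat_mul, div_le_iff₀ (by positivity),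
      le_inv_mul_iff₀ (by positivity)]
    calc Real.exp 12 ^ (v + 5) * 4 ≤ ((2 : ℝ) ^ 18) ^ (v + 5) * 4 := by
          gcongr
          exact exp_twelve_le
      _ = 2 ^ (18 * (v + 5) + 2) := by rw [← pow_mul, pow_add]; norm_num
      _ ≤ 2 ^ l := pow_le_pow_right₀ (by norm_num) hv
  set Y : ℝ := ((2 ^ (18 * l) : ℕ) : ℝ) with hY
  have hU : (2 : ℝ) ^ l ≤ Y := by
    rw [hY]
    push_cast
    exact pow_le_pow_right₀ (by norm_num) (by omega)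
  have hU0 : (0 : ℝ) < 2 ^ l := by positivity
  have hY0 : 0 < Y := by linarith
  have hT : (((2 ^ (18 * l)) ^ (s + 1) : ℕ) : ℝ) = Y ^ s * Y := by
    rw [hY, Nat.cast_pow, pow_succ]
  rw [hT] at h1 ⊢
  have h4 := h3.trans h2
  have h5 : 0 < Y ^ s := by positivity
  have h6 : Y ^ s * Y / 2 * (4 / 2 ^ l) ≤ Y ^ s * Y / 2 * ∏ p ∈ Nat.primesLE (2 ^ (18 * l)), (1 - 1 / (p : ℝ)) :=
    mul_le_mul_of_nonneg_left h4 (by positivity)
  have h7 : Y ^ s ≤ Y ^ s * Y / 2 ^ l := by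
    rw [le_div_iff₀ hU0]
    exact mul_le_mul_of_nonneg_left hU h5.le
  have h8 : Y ^ s * Y / 2 * (4 / 2 ^ l) = 2 * (Y ^ s * Y / 2 ^ l) := by ring
  push_cast
  rw [← div_le_iff₀' hU0]
  linarith

theorem pc_lower {n k : ℕ} (hn : 3 ≤ n) (h : 2 * n * k ≤ 2 ^ n) : k ≤ Nat.primeCounting (2 ^ n) :=
  Nat.le_of_mul_le_mul_left (h.trans (two_pow_le_primeCounting hn)) (by omega)

theorem params1 {k l v : ℕ} (hk54 : 54 ≤ k) (hv : 1 ≤ v) (hbig : 48 * k * v ^ 2 ≤ l) :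
    48 * k * v ≤ l ∧ 48 * k ≤ l ∧ 2592 * v ≤ l ∧
      ∃ w, 2 * v * (w + 1) ≤ l ∧ 1 ≤ w ∧ 2 * (w + 1) ≤ l ∧ l ≤ 6 * v * w := by
  have hv2 : v ≤ v ^ 2 := by nlinarith
  have hkv : 48 * k * v ≤ l := le_trans (Nat.mul_le_mul_left _ hv2) hbig
  have hkl : 48 * k ≤ l := le_trans (Nat.le_mul_of_pos_right _ hv) hkv
  have hvl : 2592 * v ≤ l := le_trans (Nat.mul_le_mul_right v (by omega)) hkv
  refine ⟨hkv, hkl, hvl, ?_⟩
  obtain ⟨w, hw⟩ : ∃ w, l / (2 * v) = w + 1 :=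
    ⟨l / (2 * v) - 1, by have := Nat.div_pos (b := 2 * v) (a := l) (by omega) (by omega); omega⟩
  have hw1 : 2 * v * (w + 1) ≤ l := by rw [← hw]; exact Nat.mul_div_le _ _
  have hw2 : l < 2 * v * (w + 2) := by
    have := Nat.lt_div_mul_add (a := l) (b := 2 * v) (by omega)
    rw [hw] at this
    nlinarith
  have hw3 : 1 ≤ w := by
    by_contra h
    have : w = 0 := by omega
    subst this
    omega
  exact ⟨w, hw1, hw3, le_trans (Nat.mul_le_mul_right _ (by omega)) hw1, by nlinarith⟩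

theorem params2 {k l v e w : ℕ} (hbig : 48 * k * v ^ 2 ≤ l) (hv : 1 ≤ v) (hl54 : 54 * l ≤ e)
    (he3 : e ≤ 2 * (k * l)) (hvl : 2592 * v ≤ l) (hw3 : 1 ≤ w) (hw4 : 2 * (w + 1) ≤ l)
    (hw5 : l ≤ 6 * v * w) :
    ∃ r, 0 < r ∧ 1 + 3 * l + (w + 3 * v) * r ≤ e ∧ r ≤ 12 * k * v ∧ e ≤ (w - 1) * r + 5 * l := by
  set z := w + 3 * v with hz
  have hzl : z ≤ l := by omega
  obtain ⟨r, hr⟩ : ∃ r, (e - 1 - 3 * l) / z = r := ⟨_, rfl⟩
  have hr1 : 1 + 3 * l + z * r ≤ e := by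
    have := Nat.mul_div_le (e - 1 - 3 * l) z
    rw [hr] at this
    omega
  have hr2 : e ≤ 4 * l + z * r := by
    have := Nat.lt_div_mul_add (a := e - 1 - 3 * l) (b := z) (by omega)
    rw [hr, mul_comm r z] at this
    omega
  have hr0 : 0 < r := by
    rcases Nat.eq_zero_or_pos r with h | h
    · subst h
      omega
    · exact h
  have hr3 : r ≤ 12 * k * v := by
    have h1 : w * r ≤ z * r := Nat.mul_le_mul_right r (by omega)
    have h2 : k * l ≤ k * (6 * v * w) := Nat.mul_le_mul_left k hw5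
    have h3 : w * (12 * k * v) = 2 * (k * (6 * v * w)) := by ring
    exact Nat.le_of_mul_le_mul_left (by omega : w * r ≤ w * (12 * k * v)) (by omega)
  have hr4 : (3 * v + 1) * r ≤ l := by
    calc (3 * v + 1) * r ≤ (4 * v) * (12 * k * v) := Nat.mul_le_mul (by omega) hr3
      _ = 48 * k * v ^ 2 := by ring
      _ ≤ l := hbig
  refine ⟨r, hr0, hr1, hr3, ?_⟩
  have : z * r = (w - 1) * r + (3 * v + 1) * r := by
    rw [← add_mul]
    congr 1
    omega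
  omega

theorem params3 {k l v w o : ℕ} (hk54 : 54 ≤ k) (hlv : l < 2 ^ v) (hv : 1 ≤ v)
    (hkv : 48 * k * v ≤ l) (hkl : 48 * k ≤ l) (hvl : 2592 * v ≤ l) (hw4 : 2 * (w + 1) ≤ l)
    (ho : o ≤ 5 * (k * l)) :
    w + 1 + o ≤ Nat.primeCounting (2 ^ (2 * v)) ∧
      2 * l * 2 ^ w + (o + (w + 1)) ≤ Nat.primeCounting (2 ^ (w + 3 * v)) := by
  have hkl1 : l ≤ k * l := Nat.le_mul_of_pos_left _ (by omega)
  constructor
  · have hv3 : 2 ≤ v := by
      by_contra h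
      have : v = 1 := by omega
      subst this
      omega
    apply pc_lower (by omega)
    calc 2 * (2 * v) * (w + 1 + o) ≤ 2 * (2 * v) * (6 * (k * l)) :=
          Nat.mul_le_mul_left _ (by omega)
      _ = (24 * k * v) * l := by ring
      _ ≤ 2 ^ v * 2 ^ v := by
          refine Nat.mul_le_mul ?_ hlv.le
          have : 48 * k * v = 2 * (24 * k * v) := by ring
          omega
      _ = 2 ^ (2 * v) := by ring
  · apply pc_lower (by omega)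
    have h1 : 1 ≤ 2 ^ w := Nat.one_le_two_pow
    have h2 : 2 * l * 2 ^ w + (o + (w + 1)) ≤ 8 * (k * l) * 2 ^ w := by
      have h3 : l * 2 ^ w ≤ k * l * 2 ^ w := Nat.mul_le_mul_right _ hkl1
      have h4 : k * l ≤ k * l * 2 ^ w := Nat.le_mul_of_pos_right _ h1
      have h5 : 2 * l * 2 ^ w = 2 * (l * 2 ^ w) := by ring
      have h6 : 8 * (k * l) * 2 ^ w = 8 * (k * l * 2 ^ w) := by ring
      omega
    calc 2 * (w + 3 * v) * (2 * l * 2 ^ w + (o + (w + 1)))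
        ≤ 2 * l * (8 * (k * l) * 2 ^ w) := Nat.mul_le_mul (by omega) h2
      _ = 2 ^ w * ((16 * k) * l * l) := by ring
      _ ≤ 2 ^ w * (2 ^ v * 2 ^ v * 2 ^ v) := by
          apply Nat.mul_le_mul_left
          exact Nat.mul_le_mul (Nat.mul_le_mul (by omega) hlv.le) hlv.le
      _ = 2 ^ (w + 3 * v) := by ring

theorem triple_set {n D d N r : ℕ} (hnD : Nat.Coprime n D) (hd : d ∣ D) (hN0 : 0 < N)
    (hNd : 2 * N ≤ d) (hND : 2 * d * N ≤ D) (S1 : Finset ℕ)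
    (hS1 : ∀ s ∈ S1, 0 < s ∧ s < N ∧ DS (fun t => t ∣ n) r s) :
    ∃ S3 : Finset ℕ, S3.card = S1.card * S1.card * S1.card ∧
      ∀ x ∈ S3, 0 < x ∧ x < D * N ∧ DS (fun t => t ∣ n * D) (3 * r) x := by
  have hdD : d < D := by nlinarith
  set S2 := (S1 ×ˢ S1).image fun z => z.1 + d * z.2 with hS2
  have hS2lt : ∀ x ∈ S2, x < D := by
    intro x hx
    obtain ⟨⟨x1, x2⟩, hx', rfl⟩ := mem_image.1 hx
    obtain ⟨h1, h2⟩ := mem_product.1 hx'
    have e1 := (hS1 x1 h1).2.1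
    have e2 := (hS1 x2 h2).2.1
    simp only at e1 e2 ⊢
    have e3 : d * x2 ≤ d * N := Nat.mul_le_mul_left d e2.le
    nlinarith
  have hS2c : S2.card = S1.card * S1.card := card_comb (by omega) _ _ (by
    intro x hx y hy hxy
    have e1 := (hS1 x hx).2.1
    have e2 := (hS1 y hy).2.1
    simp only at hxy
    rwa [Nat.mod_eq_of_lt (by omega), Nat.mod_eq_of_lt (by omega)] at hxy)
  refine ⟨(S2 ×ˢ S1).image fun z => z.1 + D * z.2, ?_, ?_⟩
  · rw [← hS2c]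
    exact card_comb (by omega) _ _ (by
      intro x hx y hy hxy
      simp only at hxy
      rwa [Nat.mod_eq_of_lt (hS2lt x hx), Nat.mod_eq_of_lt (hS2lt y hy)] at hxy)
  · intro x hx
    obtain ⟨⟨y, x3⟩, hx', rfl⟩ := mem_image.1 hx
    obtain ⟨hy, h3⟩ := mem_product.1 hx'
    have e0 := hS2lt y hy
    obtain ⟨⟨x1, x2⟩, hy', rfl⟩ := mem_image.1 hy
    obtain ⟨h1, h2⟩ := mem_product.1 hy'
    simp only at e0 h1 h2 h3 ⊢
    refine ⟨by have := (hS1 x1 h1).1; omega, ?_,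
      DS.triple hnD hd (by omega) hdD (hS1 x1 h1).2.2 (hS1 x2 h2).2.2 (hS1 x3 h3).2.2⟩
    have e3 := (hS1 x3 h3).2.1
    calc x1 + d * x2 + D * x3 < D * (x3 + 1) := by rw [mul_add, mul_one]; omega
      _ ≤ D * N := Nat.mul_le_mul_left D e3

theorem finish {a D M n0 k P U : ℕ} (hD : 0 < D) (hM : 0 < M) (hn0 : 0 < n0)
    (hP : P + D = a * M * n0) (hPD : P < D) (hU : 0 < U) (hPU : P ∣ U)
    (hDS : DS (fun t => t ∣ D * M) k U) : Rep ((a : ℚ) / D) (k + 1) := by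
  obtain ⟨W, hW⟩ := hPU
  have hW0 : 0 < W := by
    rcases Nat.eq_zero_or_pos W with h | h
    · rw [h] at hW
      omega
    · exact h
  have hm0 : 0 < M * n0 := by positivity
  have hDS' : DS (fun t => t ∣ D * (M * n0)) k (P * W) := by
    rw [← hW]
    exact hDS.mono fun t ht => ht.trans ⟨n0, by ring⟩
  have hrep := hDS'.rep (by positivity) hW0
  have hD' : (0 : ℚ) < D := by exact_mod_cast hD
  have hm' : (0 : ℚ) < ((M * n0 : ℕ) : ℚ) := by exact_mod_cast hm0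
  have hnum : (P : ℚ) = a * ((M * n0 : ℕ) : ℚ) - D := by
    have h1 : ((P + D : ℕ) : ℚ) = ((a * M * n0 : ℕ) : ℚ) := by rw [hP]
    push_cast at h1 ⊢
    linarith
  have heq : (a : ℚ) / D - 1 / ((M * n0 : ℕ) : ℚ) = (P : ℚ) / ((D * (M * n0) : ℕ) : ℚ) := by
    rw [hnum, Nat.cast_mul D]
    field_simp
  refine Rep.step hm0 (heq ▸ hrep) ?_
  rw [heq, Nat.cast_mul D, div_lt_div_iff₀ (by positivity) hm']
  have : (P : ℚ) < D := by exact_mod_cast hPD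
  nlinarith

theorem start_facts {A D : ℕ} (hA0 : 0 < A) (hAD : Nat.Coprime A D) :
    ∃ c n0, 0 < n0 ∧ 0 < c ∧ c ≤ A ∧ c + D = A * n0 ∧ Nat.Coprime c A := by
  have h1 := Nat.lt_div_mul_add (a := D) hA0
  have h2 := Nat.div_mul_le_self D A
  have h3 : A * (D / A + 1) = D / A * A + A := by ring
  refine ⟨A * (D / A + 1) - D, D / A + 1, by positivity, by omega, by omega, by omega, ?_⟩
  have h4 : Nat.gcd (A * (D / A + 1) - D) A ∣ A * (D / A + 1) := (Nat.gcd_dvd_right _ A).mul_right _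
  have h5 := Nat.dvd_sub h4 (Nat.gcd_dvd_left (A * (D / A + 1) - D) A)
  rw [show A * (D / A + 1) - (A * (D / A + 1) - D) = D by omega] at h5
  exact Nat.eq_one_of_dvd_coprimes hAD (Nat.gcd_dvd_right _ _) h5

theorem sq_le_two_pow {m : ℕ} (hm : 4 ≤ m) : m * m ≤ 2 ^ m := by
  induction m, hm using Nat.le_induction with
  | base => norm_num
  | succ m hm ih => rw [pow_succ]; nlinarith

theorem big_ineq {l e x S : ℕ} (hl : 10 ≤ l) (hx : 6 + 2 * x + 15 * l ≤ 3 * e)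
    (hS : 2 ^ (3 * e) ≤ S * 2 ^ (15 * l)) :
    8 * 2 ^ (3 * e + 3) * (2 ^ l) ^ 2 + 12 * (2 ^ x) ^ 2 * 2 ^ (18 * l) < S * 2 ^ (18 * l) := by
  have h1 : 2 ^ (3 * e + 3 * l) ≤ S * 2 ^ (18 * l) := by
    calc 2 ^ (3 * e + 3 * l) = 2 ^ (3 * e) * 2 ^ (3 * l) := by ring
      _ ≤ S * 2 ^ (15 * l) * 2 ^ (3 * l) := Nat.mul_le_mul_right _ hS
      _ = S * 2 ^ (18 * l) := by ring
  have h2 : 8 * 2 ^ (3 * e + 3) * (2 ^ l) ^ 2 ≤ 2 ^ (3 * e + 3 * l - 2) := by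
    calc 8 * 2 ^ (3 * e + 3) * (2 ^ l) ^ 2 = 2 ^ (3 * e + 6 + 2 * l) := by ring
      _ ≤ _ := Nat.pow_le_pow_right (by norm_num) (by omega)
  have h3 : 12 * (2 ^ x) ^ 2 * 2 ^ (18 * l) ≤ 2 ^ (3 * e + 3 * l - 2) := by
    calc 12 * (2 ^ x) ^ 2 * 2 ^ (18 * l) ≤ 16 * (2 ^ x) ^ 2 * 2 ^ (18 * l) := by gcongr; norm_num
      _ = 2 ^ (4 + 2 * x + 18 * l) := by ring
      _ ≤ _ := Nat.pow_le_pow_right (by norm_num) (by omega)
  have h4 : 2 ^ (3 * e + 3 * l) = 4 * 2 ^ (3 * e + 3 * l - 2) := by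
    rw [show 4 = 2 ^ 2 by norm_num, ← pow_add]
    congr 1
    omega
  have h5 : 0 < 2 ^ (3 * e + 3 * l - 2) := by positivity
  omega

theorem size_facts {l e y L d D : ℕ} (hy : 1 + 3 * l + y ≤ e) (hL1 : 2 ^ e ≤ L)
    (hd1 : L ≤ 2 ^ l * d) (hd2 : d ≤ L) (hD1 : L ^ 2 ≤ (2 ^ l) ^ 2 * D) :
    2 * 2 ^ (l + y) ≤ d ∧ 2 * d * 2 ^ (l + y) ≤ D := by
  have hNL : 2 * (2 ^ l) ^ 2 * 2 ^ (l + y) ≤ L := by
    refine le_trans ?_ hL1
    rw [← pow_mul, ← pow_succ', ← pow_add]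
    exact Nat.pow_le_pow_right (by norm_num) (by omega)
  have hU0 : 0 < 2 ^ l := by positivity
  have hN0 : 0 < 2 ^ (l + y) := by positivity
  generalize 2 ^ (l + y) = N at *
  generalize 2 ^ l = U at *
  constructor
  · have h0 : U * (2 * N) ≤ 2 * U ^ 2 * N := by
      have : U * (2 * N) * 1 ≤ U * (2 * N) * U := Nat.mul_le_mul_left _ hU0
      nlinarith
    exact Nat.le_of_mul_le_mul_left (h0.trans (hNL.trans hd1)) hU0
  · have h0 : U ^ 2 * (2 * d * N) ≤ L ^ 2 := by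
      calc U ^ 2 * (2 * d * N) = d * (2 * U ^ 2 * N) := by ring
        _ ≤ L * L := Nat.mul_le_mul hd2 hNL
        _ = L ^ 2 := by ring
    exact Nat.le_of_mul_le_mul_left (h0.trans hD1) (by positivity)

theorem core {s : ℕ} (hs : ∀ Y T c A : ℕ, 1 ≤ Y → Nat.Coprime c A →
    (T : ℝ) / 2 * ∏ p ∈ Nat.primesLE Y, (1 - 1 / (p : ℝ)) - (Y : ℝ) ^ s ≤
      ((range T).filter fun n => ∀ p ∈ Nat.primesLE Y, ¬ p ∣ c + A * n).card)
    {k l v e a D d L : ℕ} (hk : k = 36 * (s + 1) + 18) (hlv : l < 2 ^ v) (hv : 1 ≤ v)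
    (hbig : 48 * k * v ^ 2 ≤ l) (he1 : k * l ≤ e) (he2 : e < k * (l + 1)) (hL1 : 2 ^ e ≤ L)
    (hL2 : L < 2 ^ (e + 1)) (ha : 0 < a) (haU : a ≤ 2 ^ l) (haD : Nat.Coprime a D) (hd : d ∣ D)
    (hd1 : L ≤ 2 ^ l * d) (hd2 : d ≤ L) (hD1 : L ^ 2 ≤ (2 ^ l) ^ 2 * D) (hD2 : D ≤ 2 * L ^ 2) :
    Rep ((a : ℚ) / D) (72 * k * v + 1) := by
  have hk54 : 54 ≤ k := by omega
  obtain ⟨hkv, hkl, hvl, w, hw1, hw3, hw4, hw5⟩ := params1 hk54 hv hbig
  have hl54 : 54 * l ≤ e := le_trans (Nat.mul_le_mul_right l hk54) he1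
  have he3 : e ≤ 2 * (k * l) := by
    have : k ≤ k * l := Nat.le_mul_of_pos_right _ (by omega)
    rw [mul_add, mul_one] at he2
    omega
  obtain ⟨r, hr0, hr1, hr3, hr5⟩ := params2 hbig hv hl54 he3 hvl hw3 hw4 hw5
  have hL0 : 0 < L := lt_of_lt_of_le (by positivity) hL1
  have hD0 : D ≠ 0 := by
    rintro rfl
    have : 0 < L ^ 2 := by positivity
    omega
  have hDe : D ≤ 2 ^ (2 * e + 3) := by
    calc D ≤ 2 * L ^ 2 := hD2
      _ ≤ 2 * (2 ^ (e + 1)) ^ 2 := by gcongr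
      _ = 2 ^ (2 * e + 3) := by ring
  have hωD : D.primeFactors.card ≤ 5 * (k * l) := by
    have := card_primeFactors_le hD0 hDe
    have : 54 * l ≤ k * l := Nat.mul_le_mul_right l hk54
    omega
  obtain ⟨hA1, hA3⟩ := params3 hk54 hlv hv hkv hkl hvl hw4 hωD
  obtain ⟨n, p, S1, hp, hpn, hnD, hn0, hnp, hS1c, hS1⟩ :=
    stageA (r := r) hD0 (by omega) hr0 hw3 hA1 hw1 hA3
  obtain ⟨hNd, hND⟩ := size_facts hr1 hL1 hd1 hd2 hD1
  have hNe : 2 ^ (l + (w + 3 * v) * r) ≤ 2 ^ e := Nat.pow_le_pow_right (by norm_num) (by omega)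
  obtain ⟨S3, hS3c, hS3⟩ := triple_set hnD hd (by positivity) hNd hND S1 hS1
  have hA0 : 0 < a * (n * p) := by have := hp.pos; positivity
  have hAD : Nat.Coprime (a * (n * p)) D := Nat.Coprime.mul_left haD (Nat.Coprime.mul_left hnD
    ((Nat.Prime.coprime_iff_not_dvd hp).2 fun h => hpn (h.mul_left _)))
  obtain ⟨c, n0, hn00, hc0, hcle, hcD, hcA⟩ := start_facts hA0 hAD
  have hAle : a * (n * p) ≤ 2 ^ (l + e) := by
    rw [pow_add]
    exact Nat.mul_le_mul haU (hnp.trans hNe)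
  obtain ⟨y, hy⟩ : ∃ y, y = l * (s + 1) := ⟨_, rfl⟩
  have hks : 36 * y + 18 * l ≤ e := by
    have : k * l = 36 * y + 18 * l := by rw [hk, hy]; ring
    omega
  have hT0 : 1 ≤ (2 ^ (18 * l)) ^ (s + 1) := Nat.one_le_pow _ _ (by positivity)
  have hX : c + a * (n * p) * (2 ^ (18 * l)) ^ (s + 1) ≤ 2 ^ (1 + l + e + 18 * y) := by
    calc _ ≤ 2 * (a * (n * p) * (2 ^ (18 * l)) ^ (s + 1)) := by
          have := Nat.le_mul_of_pos_right (a * (n * p)) hT0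
          omega
      _ ≤ 2 * (2 ^ (l + e) * (2 ^ (18 * l)) ^ (s + 1)) := by gcongr
      _ = _ := by rw [hy, ← pow_mul]; ring
  have hxU : 1 + l + e + 18 * y ≤ 2 ^ l := by
    have h2 := sq_le_two_pow (m := l) (by omega)
    have h3 : 4 * k * l ≤ l * l := Nat.mul_le_mul_right l (by omega)
    have h4 : 4 * k * l = 4 * (k * l) := by ring
    omega
  have hScard : 2 ^ (3 * e) ≤ S3.card * 2 ^ (15 * l) := by
    rw [hS3c]
    calc 2 ^ (3 * e) ≤ 2 ^ (3 * ((w - 1) * r + 5 * l)) :=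
          Nat.pow_le_pow_right (by norm_num) (by omega)
      _ = 2 ^ ((w - 1) * r) * 2 ^ ((w - 1) * r) * 2 ^ ((w - 1) * r) * 2 ^ (15 * l) := by ring
      _ ≤ _ := by gcongr
  obtain ⟨τ, hτ, s1, hs1, s2, hs2, hdvd⟩ := stageB (p := p) (R := 2 ^ (3 * e + 3)) hc0 hcA
    ((dvd_mul_left p n).mul_left a) (by positivity)
    (Nat.le_self_pow (by omega) _) hX le_rfl hxU (sieve_count hs hlv (by omega) hcA) S3
    (fun x hx => (hS3 x hx).2.1.trans_le (by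
      calc _ ≤ 2 ^ (2 * e + 3) * 2 ^ e := Nat.mul_le_mul hDe hNe
        _ = 2 ^ (3 * e + 3) := by ring)) (big_ineq (by omega) (by omega) hScard)
  have hDS := DS.pair hp.pos hpn (hS3 s1 hs1).2.2 (hS3 s2 hs2).2.2
  have hPD : c + a * (n * p) * τ < D := by
    have h1 : c + a * (n * p) * τ ≤ 2 ^ (1 + l + e + 18 * y) := le_trans (by
      have := Nat.mul_le_mul_left (a * (n * p)) hτ.le
      omega) hX
    have h2 : (2 ^ l) ^ 2 * 2 ^ (1 + l + e + 18 * y) < (2 ^ l) ^ 2 * D := by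
      calc (2 ^ l) ^ 2 * 2 ^ (1 + l + e + 18 * y) = 2 ^ (2 * l + (1 + l + e + 18 * y)) := by ring
        _ < 2 ^ (2 * e) := Nat.pow_lt_pow_right (by norm_num) (by omega)
        _ = (2 ^ e) ^ 2 := by ring
        _ ≤ L ^ 2 := Nat.pow_le_pow_left hL1 2
        _ ≤ _ := hD1
    have := Nat.lt_of_mul_lt_mul_left h2
    omega
  have hfin := finish (a := a) (M := n * p) (n0 := n0 + τ) (Nat.pos_of_ne_zero hD0)
    (by have := hp.pos; positivity) (by omega) (by rw [mul_add]; omega) hPD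
    (by have := (hS3 s1 hs1).1; omega) hdvd (hDS.mono fun t ht => ht.trans ⟨1, by ring⟩)
  refine hfin.mono ?_
  have : 72 * k * v = 6 * (12 * k * v) := by ring
  omega

end Vale.Agent.P012
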