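import Vale.Agent.P012.Core

/-!
Assembly of the upper and lower bounds.
-/

namespace Vale.Agent.P012

open Finset Vale.Agent.Sieve

theorem exists_l0 (k : ℕ) : ∃ l0, 1 ≤ l0 ∧ ∀ l, l0 ≤ l → 48 * k * (Nat.log 2 l + 1) ^ 2 ≤ l := by
  have h : ∃ v0, ∀ v, v0 ≤ v → 48 * k * (v + 1) ^ 2 ≤ 2 ^ v := by
    have h1 := tendsto_pow_const_div_const_pow_of_one_lt 2 (r := 2) (by norm_num)
    have h2 : (0 : ℝ) < 1 / (192 * k + 1) := by positivity
    obtain ⟨v0, hv0⟩ := Filter.eventually_atTop.1 (h1.eventually (gt_mem_nhds h2))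
    refine ⟨v0 + 1, fun v hv => ?_⟩
    have h3 := hv0 v (by omega)
    rw [div_lt_div_iff₀ (by positivity) (by positivity), one_mul] at h3
    have h4 : v ^ 2 * (192 * k + 1) < 2 ^ v := by exact_mod_cast h3
    have h5 : (v + 1) ^ 2 ≤ 4 * v ^ 2 := by nlinarith
    have h6 : 48 * k * (v + 1) ^ 2 ≤ 48 * k * (4 * v ^ 2) := Nat.mul_le_mul_left _ h5
    nlinarith
  obtain ⟨v0, hv0⟩ := h
  refine ⟨2 ^ v0, Nat.one_le_two_pow, fun l hl => ?_⟩
  have hl0 : l ≠ 0 := by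
    have : 0 < 2 ^ v0 := by positivity
    omega
  exact (hv0 _ (Nat.le_log_of_pow_le (by norm_num) hl)).trans (Nat.pow_log_le_self 2 hl0)

theorem terminal {s : ℕ} (hs : ∀ Y T c A : ℕ, 1 ≤ Y → Nat.Coprime c A →
    (T : ℝ) / 2 * ∏ p ∈ Nat.primesLE Y, (1 - 1 / (p : ℝ)) - (Y : ℝ) ^ s ≤
      ((range T).filter fun n => ∀ p ∈ Nat.primesLE Y, ¬ p ∣ c + A * n).card)
    {k l0 l1 b : ℕ} (hk : k = 36 * (s + 1) + 18)
    (hl0 : ∀ l, l0 ≤ l → 48 * k * (Nat.log 2 l + 1) ^ 2 ≤ l) (hl1 : l0 ≤ l1) (hl1' : 1 ≤ l1)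
    (hb : b ≤ 2 ^ l1) (a L : ℕ) (ha : 0 < a) (hab : a ≤ b) (hT1 : 2 ^ (k * l1) ≤ L)
    (hT2 : L ≤ (2 ^ (k * l1)) ^ 2) : Rep ((a : ℚ) / L) (72 * k * (Nat.log 2 l1 + 2) + 2) := by
  have hk0 : 0 < k := by omega
  have hL0 : 0 < L := lt_of_lt_of_le (by positivity) hT1
  set e := Nat.log 2 L with he
  have he1 : k * l1 ≤ e := Nat.le_log_of_pow_le (by norm_num) hT1
  have he2 : e ≤ k * (2 * l1) := by
    have h1 : 2 ^ e ≤ L := Nat.pow_log_le_self 2 hL0.ne'
    have h2 : 2 ^ e ≤ 2 ^ (k * (2 * l1)) := by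
      refine h1.trans (hT2.trans (le_of_eq ?_))
      ring
    exact (Nat.pow_le_pow_iff_right (by norm_num)).1 h2
  set l := e / k with hl
  have hll1 : l1 ≤ l := (Nat.le_div_iff_mul_le hk0).2 (by rwa [mul_comm])
  have hll2 : l ≤ 2 * l1 := Nat.div_le_of_le_mul he2
  have hU : b ≤ 2 ^ l := hb.trans (Nat.pow_le_pow_right (by norm_num) hll1)
  have haL : a < L := by
    have : 2 ^ l1 < 2 ^ (k * l1) := Nat.pow_lt_pow_right (by norm_num) (by nlinarith)
    omega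
  obtain ⟨f1, f2, -⟩ := greedy_facts ha 0 (L := L) (by omega)
  have hv : Nat.log 2 l + 1 ≤ Nat.log 2 l1 + 2 := by
    have h1 : Nat.log 2 l ≤ Nat.log 2 (l1 * 2) := Nat.log_mono_right (by omega)
    rw [Nat.log_mul_base (by norm_num) (by omega)] at h1
    omega
  have hm1 : L < a * (L / a + 1) := by omega
  have hm2 : L / a + 1 ≤ L + 1 := by
    have := Nat.div_le_self L a
    omega
  refine (greedy_step ha haL (k := 72 * k * (Nat.log 2 l + 1) + 1) ?_).mono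
    (by have := Nat.mul_le_mul_left (72 * k) hv; omega)
  generalize L / a + 1 = m at *
  generalize a * m - L = a2 at *
  set g := Nat.gcd a2 (L * m) with hg
  have hg0 : 0 < g := Nat.gcd_pos_of_pos_left _ f1
  have hg1 : g ≤ a2 := Nat.le_of_dvd f1 (Nat.gcd_dvd_left _ _)
  obtain ⟨a3, ha3⟩ : g ∣ a2 := Nat.gcd_dvd_left _ _
  obtain ⟨D, hD⟩ : g ∣ L * m := Nat.gcd_dvd_right _ _
  have hcop : Nat.Coprime a3 D := by
    have h1 : Nat.gcd (g * a3) (g * D) = g := by rw [← ha3, ← hD]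
    rw [Nat.gcd_mul_left] at h1
    exact Nat.eq_of_mul_eq_mul_left hg0 (by rw [h1, mul_one])
  have ha30 : 0 < a3 := by
    rcases Nat.eq_zero_or_pos a3 with h | h
    · rw [h] at ha3
      omega
    · exact h
  have hm0 : 0 < m := by
    rcases Nat.eq_zero_or_pos m with h | h
    · rw [h] at hm1
      omega
    · exact h
  have hD0 : 0 < D := by
    rcases Nat.eq_zero_or_pos D with h | h
    · rw [h] at hD
      have : 0 < L * m := by positivity
      omega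
    · exact h
  have heq : (a2 : ℚ) / ((L * m : ℕ) : ℚ) = (a3 : ℚ) / D := by
    rw [hD, ha3]
    have : (g : ℚ) ≠ 0 := by positivity
    have : (D : ℚ) ≠ 0 := by positivity
    push_cast
    field_simp
  rw [heq]
  have hgU : g ≤ 2 ^ l := by omega
  refine core hs (d := Nat.gcd L D) (L := L) (e := e) hk
    (Nat.lt_pow_succ_log_self (by norm_num) l) (by omega) (hl0 l (by omega))
    (Nat.mul_div_le e k) ?_ (Nat.pow_log_le_self 2 hL0.ne') (Nat.lt_pow_succ_log_self (by norm_num) L)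
    ha30 ?_ hcop (Nat.gcd_dvd_right _ _) ?_ (Nat.le_of_dvd hL0 (Nat.gcd_dvd_left _ _)) ?_ ?_
  · have := Nat.lt_div_mul_add (a := e) hk0
    rw [mul_add, mul_one, mul_comm]
    exact this
  · have : a3 ≤ g * a3 := Nat.le_mul_of_pos_left _ hg0
    omega
  · have h1 : L ∣ g * Nat.gcd L D := by
      rw [← Nat.gcd_mul_left, ← hD]
      exact Nat.dvd_gcd (dvd_mul_left _ _) (dvd_mul_right _ _)
    have h2 : 0 < Nat.gcd L D := Nat.gcd_pos_of_pos_left _ hL0
    exact (Nat.le_of_dvd (by positivity) h1).trans (Nat.mul_le_mul_right _ hgU)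
  · calc L ^ 2 = L * L := by ring
      _ ≤ L * (a * m) := Nat.mul_le_mul_left _ hm1.le
      _ = a * (L * m) := by ring
      _ = a * g * D := by rw [hD]; ring
      _ ≤ 2 ^ l * 2 ^ l * D := Nat.mul_le_mul_right _ (Nat.mul_le_mul (by omega) hgU)
      _ = _ := by ring
  · calc D ≤ g * D := Nat.le_mul_of_pos_left _ hg0
      _ = L * m := hD.symm
      _ ≤ L * (2 * L) := Nat.mul_le_mul_left _ (by omega)
      _ = _ := by ring

theorem upper_nat : ∃ C l0 : ℕ, ∀ b l1 : ℕ, l0 ≤ l1 → b ≤ 2 ^ l1 → ∀ a : ℕ, 0 < a → a < b →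
    Rep ((a : ℚ) / b) (C * (Nat.log 2 l1 + 1)) := by
  obtain ⟨s, hs⟩ := sieve_lower
  obtain ⟨k, hk⟩ : ∃ k, k = 36 * (s + 1) + 18 := ⟨_, rfl⟩
  obtain ⟨l0, hl00, hl0⟩ := exists_l0 k
  refine ⟨200 * k, l0, fun b l1 hl1 hb a ha hab => ?_⟩
  have hloop := greedy_loop (terminal hs hk hl0 hl1 (by omega) hb) (k + Nat.log 2 l1 + 1)
  obtain ⟨f1, f2, f3⟩ := greedy_facts ha 1 (L := b) (by omega)
  have h1 : 2 ^ l1 < 2 ^ (k * l1) := Nat.pow_lt_pow_right (by norm_num) (by nlinarith)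
  refine (greedy_step ha hab (hloop _ _ 2 f1 (by omega) le_rfl f3 ?_ ?_)).mono ?_
  · have := Nat.div_le_self b a
    rw [sq]
    exact Nat.mul_le_mul (by omega) (by omega)
  · apply Nat.pow_le_pow_right (by norm_num)
    rw [add_assoc, pow_add]
    exact Nat.mul_le_mul Nat.lt_two_pow_self.le (Nat.lt_pow_succ_log_self (by norm_num) l1).le
  · have : 54 ≤ k := by omega
    nlinarith

theorem one_le_loglog {b : ℕ} (hb : 16 ≤ b) : 1 ≤ Real.log b ∧ 1 ≤ Real.log (Real.log b) := by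
  have h1 : Real.log 16 ≤ Real.log b := Real.log_le_log (by norm_num) (by exact_mod_cast hb)
  have h2 : Real.log 16 = 4 * Real.log 2 := by
    rw [show (16 : ℝ) = 2 ^ 4 by norm_num, Real.log_pow]
    norm_num
  have h3 := Real.log_two_gt_d9
  have h4 := Real.exp_one_lt_d9
  refine ⟨by linarith, ?_⟩
  rw [Real.le_log_iff_exp_le (by linarith)]
  linarith

theorem log_log_bound {b : ℕ} (hb : 16 ≤ b) :
    ((Nat.log 2 (Nat.log 2 b + 1) + 1 : ℕ) : ℝ) ≤ 6 * Real.log (Real.log b) := by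
  obtain ⟨h1, h2⟩ := one_le_loglog hb
  have h3 := Real.log_two_gt_d9
  have h4 : ((2 ^ Nat.log 2 b : ℕ) : ℝ) ≤ b := by exact_mod_cast Nat.pow_log_le_self 2 (by omega)
  have h5 : (Nat.log 2 b : ℝ) * Real.log 2 ≤ Real.log b := by
    rw [← Real.log_pow]
    push_cast at h4
    exact Real.log_le_log (by positivity) h4
  have h6 : ((Nat.log 2 b + 1 : ℕ) : ℝ) ≤ 3 * Real.log b := by
    push_cast
    have : (0 : ℝ) ≤ Nat.log 2 b := by positivity
    nlinarith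
  have h7 : ((2 ^ Nat.log 2 (Nat.log 2 b + 1) : ℕ) : ℝ) ≤ ((Nat.log 2 b + 1 : ℕ) : ℝ) := by
    exact_mod_cast Nat.pow_log_le_self 2 (by omega)
  have h8 : (Nat.log 2 (Nat.log 2 b + 1) : ℝ) * Real.log 2 ≤ Real.log (3 * Real.log b) := by
    rw [← Real.log_pow]
    rw [Nat.cast_pow, Nat.cast_ofNat] at h7
    exact Real.log_le_log (by positivity) (h7.trans h6)
  rw [Real.log_mul (by norm_num) (by linarith)] at h8
  have h9 : Real.log 3 ≤ 2 := by
    have := Real.log_le_sub_one_of_pos (x := 3) (by norm_num)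
    linarith
  push_cast
  have : (0 : ℝ) ≤ Nat.log 2 (Nat.log 2 b + 1) := by positivity
  nlinarith

theorem upper : ∃ C : ℝ, ∃ b0 : ℕ, ∀ b : ℕ, b0 ≤ b → ∀ a : ℕ, 1 ≤ a → a < b → ∃ s : Finset ℕ,
    (∀ n ∈ s, 2 ≤ n) ∧ ∑ n ∈ s, (1 / n : ℚ) = a / b ∧
      (s.card : ℝ) ≤ C * Real.log (Real.log b) := by
  obtain ⟨C, l0, h⟩ := upper_nat
  refine ⟨6 * C, max 16 (2 ^ l0), fun b hb a ha hab => ?_⟩
  have hb1 : 16 ≤ b := le_of_max_le_left hb
  have hb2 : 2 ^ l0 ≤ b := le_of_max_le_right hb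
  obtain ⟨s, h1, h2, h3⟩ := h b (Nat.log 2 b + 1)
    (by have := Nat.le_log_of_pow_le (b := 2) (by norm_num) hb2; omega)
    (Nat.lt_pow_succ_log_self (by norm_num) b).le a ha hab
  refine ⟨s, fun n hn => ?_, h3, ?_⟩
  · have h4 := single_le_sum (f := fun n : ℕ => (1 / n : ℚ)) (fun n _ => by positivity) hn
    have h5 : (a : ℚ) / b < 1 := by
      rw [div_lt_one (by exact_mod_cast (by omega : 0 < b))]
      exact_mod_cast hab
    have h6 := h1 n hn
    by_contra h7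
    have : n = 1 := by omega
    subst this
    simp only [Nat.cast_one, div_one] at h4
    linarith
  · have h4 : (s.card : ℝ) ≤ ((C * (Nat.log 2 (Nat.log 2 b + 1) + 1) : ℕ) : ℝ) := by exact_mod_cast h2
    rw [Nat.cast_mul] at h4
    have h5 := mul_le_mul_of_nonneg_left (log_log_bound hb1) (Nat.cast_nonneg (α := ℝ) C)
    linarith

theorem lower {b : ℕ} (hb : 16 ≤ b) (s : Finset ℕ) (hs : ∀ n ∈ s, 2 ≤ n)
    (h : ∑ n ∈ s, (1 / n : ℚ) = ((b - 1 : ℕ) : ℚ) / b) :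
    1 / 3 * Real.log (Real.log b) ≤ s.card := by
  have hb0 : (0 : ℚ) < b := by exact_mod_cast (by omega : 0 < b)
  have h1 : ((b - 1 : ℕ) : ℚ) / b = 1 - 1 / b := by
    rw [Nat.cast_sub (by omega)]
    field_simp
    simp
  have h2 : (0 : ℚ) < 1 / b := by positivity
  have h3 := gap_lower s.card s 1 1 rfl one_pos (fun n hn => by have := hs n hn; omega)
    (by rw [h, h1]; simp only [Nat.cast_one, div_one]; linarith)
  rw [h, h1] at h3
  simp only [Nat.cast_one, div_one, sub_sub_cancel, mul_one] at h3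
  rw [one_div_le_one_div (by positivity) hb0] at h3
  have h4 : b ≤ (2 * (s.card + 1)) ^ 2 ^ s.card := by exact_mod_cast h3
  have hk : 1 ≤ s.card := by
    by_contra hk
    have : s.card = 0 := by omega
    rw [this] at h4
    omega
  generalize s.card = k at *
  have h5 : 2 * (k + 1) ≤ 2 ^ (2 ^ (k + 1)) := by
    have e1 : k + 1 < 2 ^ (k + 1) := Nat.lt_two_pow_self
    have e2 : k + 1 < 2 ^ (k + 1) := Nat.lt_two_pow_self
    calc 2 * (k + 1) ≤ 2 * 2 ^ (k + 1) := by omega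
      _ = 2 ^ (k + 1 + 1) := by ring
      _ ≤ 2 ^ (2 ^ (k + 1)) := Nat.pow_le_pow_right (by norm_num) e1
  have h6 : b ≤ 2 ^ (2 ^ (2 * k + 1)) := by
    calc b ≤ (2 ^ (2 ^ (k + 1))) ^ 2 ^ k := h4.trans (Nat.pow_le_pow_left h5 _)
      _ = 2 ^ (2 ^ (2 * k + 1)) := by rw [← pow_mul, ← pow_add]; congr 2; ring
  obtain ⟨l1, l2⟩ := one_le_loglog hb
  have h7 := Real.log_two_lt_d9
  have h8 : Real.log b ≤ 2 ^ (2 * k + 1) := by
    have : Real.log b ≤ Real.log ((2 : ℝ) ^ (2 ^ (2 * k + 1))) :=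
      Real.log_le_log (by exact_mod_cast (by omega : 0 < b)) (by exact_mod_cast h6)
    rw [Real.log_pow] at this
    push_cast at this
    have h9 : (0 : ℝ) < 2 ^ (2 * k + 1) := by positivity
    nlinarith
  have h9 : Real.log (Real.log b) ≤ Real.log ((2 : ℝ) ^ (2 * k + 1)) :=
    Real.log_le_log (by linarith) h8
  rw [Real.log_pow] at h9
  push_cast at h9
  have : (1 : ℝ) ≤ k := by exact_mod_cast hk
  nlinarith

end Vale.Agent.P012
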